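import Vale.Agent.P224.PO.R9s.Id
import Vale.Agent.P224.PO.LvO
import Vale.Agent.P224.PO.LawK

/-!
The values of the rows of the certificate and its pointwise inequality with resources and slack.
-/

namespace Vale.Agent.P224.PO.R9s

open Vale.Agent.P224 Vale.Agent.P224.UE Vale.Agent.P224.POS Vale.Agent.P224.PO
open scoped RealInnerProductSpace

/-- the value of the rows -/
def qv : PE := PE.add (PE.add (PE.c (-3004231893600)) (PE.mul (PE.c 1434395791920) (PE.v 0)))
  (PE.mul (PE.c 1198361514000) (PE.v 1))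

set_option maxRecDepth 100000 in
lemma qv_chk : chk [] (PE.sub (lvO 9 rows) qv) = true := by decide +kernel

lemma hval_rows (u r : ℝ) : hval 9 (rlH 123145302310912 rows) u r
    = -(2682349905 / 1099511627776) + (2561421057 / 2199023255552) * u + (2139931275 / 2199023255552) * r := by
  rw [hval_eq (by norm_num) qv_chk]
  unfold qv
  simp only [PE.ev_add, PE.ev_mul, PE.ev_c, PE.ev_v]
  have e0 : ([u, r] : List ℝ).getD 0 0 = u := rfl
  have e1 : ([u, r] : List ℝ).getD 1 0 = r := rfl
  rw [e0, e1]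
  push_cast
  ring

/-- **The pointwise inequality** with the resources and the slack. -/
theorem hposS {E : Type*} [NormedAddCommGroup E] [InnerProductSpace ℝ E] (e x N y w : E)
    (he : ‖e‖ ^ 2 ≤ 25 / 36) (hx : ‖x‖ = 1) (hN : ‖N‖ = 1) (hy : ‖y‖ = 1) (hw : ‖w‖ = 1)
    (hxN : ⟪x, N⟫ = 0) (hyw : ⟪y, w⟫ = 0) (hs : ⟪x, y⟫ < 1) :
    0 ≤ Vale.Agent.P224.UE.W9 1 (578482826495 / 1099511627776) (-(112903306201 / 34359738368)) (74255221709 / 34359738368) (-(453626061139 / 549755813888)) (266060857135 / 1099511627776) (0) (468692938029 / 1099511627776) (0)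
        (dv x N y w e)
      + hsum 9 (rlH 123145302310912 rows) (dv x N y w e)
      - (64424511 / 536870912) * RF (-(77 / 18)) 48 (1603 / 1024) (dv x N y w e)
      - (0) * (dv x N y w e) 0 ^ 3
      + XS (0) (0) (0) (-(65970739959 / 2199023255552)) (dv x N y w e) := by
  have h := hpos e x N y w he hx hN hy hw hxN hyw hs
  unfold Vale.Agent.P224.UE.W9 XF XS at h
  unfold Vale.Agent.P224.UE.W9 RF XS
  linarith

end Vale.Agent.P224.PO.R9s
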